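import Mathlib

namespace Vale.Agent.Lib.P262

open Finset

section General

variable {E : Type*} [NormedAddCommGroup E] [NormedSpace ℝ E]

/-- `Forced ρ x L`: whatever the signs given to the successive vectors of the list `L`, the walk
started at `x` has a position of squared norm at least `ρ` (the start is included). -/
def Forced (ρ : ℝ) : E → List E → Prop
  | x, [] => ρ ≤ ‖x‖ ^ 2
  | x, w :: L => ρ ≤ ‖x‖ ^ 2 ∨ (Forced ρ (x + w) L ∧ Forced ρ (x - w) L)

omit [NormedSpace ℝ E] in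
lemma forced_of_le {ρ : ℝ} {x : E} (h : ρ ≤ ‖x‖ ^ 2) (L : List E) : Forced ρ x L := by
  cases L with
  | nil => exact h
  | cons w L => exact Or.inl h

omit [NormedSpace ℝ E] in
lemma forced_neg {ρ : ℝ} (L : List E) : ∀ x : E, Forced ρ x L → Forced ρ (-x) L := by
  induction L with
  | nil =>
    intro x h
    simpa [Forced] using h
  | cons w L ih =>
    intro x h
    rcases h with h | ⟨h1, h2⟩
    · left; simpa using h
    · right
      constructor
      · have := ih _ h2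
        rwa [neg_sub, sub_eq_add_neg, add_comm] at this
      · have := ih _ h1
        rwa [neg_add, ← sub_eq_add_neg] at this

/-- The sequence given by a list. -/
def seqOf (L : List E) : ℕ → E := fun i => L.getD i 0

lemma forced_spec {ρ : ℝ} (L : List E) : ∀ (x : E), Forced ρ x L → ∀ ε : ℕ → ℝ,
    (∀ i, ε i = 1 ∨ ε i = -1) →
    ∃ k ≤ L.length, ρ ≤ ‖x + ∑ i ∈ range k, ε i • seqOf L i‖ ^ 2 := by
  induction L with
  | nil =>
    intro x h ε _
    exact ⟨0, le_rfl, by simpa [Forced] using h⟩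
  | cons w L ih =>
    intro x h ε hε
    rcases h with h | ⟨h1, h2⟩
    · exact ⟨0, by simp, by simpa using h⟩
    · have hsum : ∀ k, ∑ i ∈ range (k + 1), ε i • seqOf (w :: L) i
          = ε 0 • w + ∑ i ∈ range k, ε (i + 1) • seqOf L i := by
        intro k
        rw [sum_range_succ', add_comm]
        simp [seqOf]
      rcases hε 0 with h0 | h0
      · obtain ⟨k, hk, hρ⟩ := ih (x + w) h1 (fun i => ε (i + 1)) (fun i => hε (i + 1))
        refine ⟨k + 1, by simpa using hk, ?_⟩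
        rw [hsum, h0]
        simpa [add_assoc] using hρ
      · obtain ⟨k, hk, hρ⟩ := ih (x - w) h2 (fun i => ε (i + 1)) (fun i => hε (i + 1))
        refine ⟨k + 1, by simpa using hk, ?_⟩
        rw [hsum, h0]
        have e : x + ((-1 : ℝ) • w + ∑ i ∈ range k, ε (i + 1) • seqOf L i)
            = x - w + ∑ i ∈ range k, ε (i + 1) • seqOf L i := by
          simp [sub_eq_add_neg, add_assoc]
        rw [e]
        exact hρ

omit [NormedSpace ℝ E] in
lemma seqOf_norm_le (L : List E) (hL : ∀ w ∈ L, ‖w‖ ≤ 1) (i : ℕ) : ‖seqOf L i‖ ≤ 1 := by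
  unfold seqOf
  by_cases hi : i < L.length
  · rw [List.getD_eq_getElem _ _ hi]
    exact hL _ (List.getElem_mem hi)
  · rw [List.getD_eq_default _ _ (by omega)]
    simp

/-- From a forcing list started at the origin to the statement on signings. -/
lemma forced_zero_to_seq {ρ : ℝ} {L : List E} (hL : ∀ w ∈ L, ‖w‖ ≤ 1) (h : Forced ρ (0 : E) L) :
    ∃ (N : ℕ) (v : ℕ → E), (∀ i, ‖v i‖ ≤ 1) ∧ ∀ ε : ℕ → ℝ, (∀ i, ε i = 1 ∨ ε i = -1) →
      ∃ k ≤ N, ρ ≤ ‖∑ i ∈ range k, ε i • v i‖ ^ 2 := by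
  refine ⟨L.length, seqOf L, seqOf_norm_le L hL, ?_⟩
  intro ε hε
  obtain ⟨k, hk, hρ⟩ := forced_spec L 0 h ε hε
  exact ⟨k, hk, by simpa using hρ⟩

end General

section Plane

/-- The Euclidean plane. -/
abbrev Pl := EuclideanSpace ℝ (Fin 2)

lemma pl_norm_sq (x : Pl) : ‖x‖ ^ 2 = x 0 ^ 2 + x 1 ^ 2 := by
  rw [EuclideanSpace.norm_sq_eq]; simp [Fin.sum_univ_two]

lemma pl_add_norm_sq (x v : Pl) :
    ‖x + v‖ ^ 2 = ‖x‖ ^ 2 + ‖v‖ ^ 2 + 2 * (x 0 * v 0 + x 1 * v 1) := by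
  rw [pl_norm_sq, pl_norm_sq, pl_norm_sq]
  simp
  ring

lemma pl_sub_norm_sq (x v : Pl) :
    ‖x - v‖ ^ 2 = ‖x‖ ^ 2 + ‖v‖ ^ 2 - 2 * (x 0 * v 0 + x 1 * v 1) := by
  rw [pl_norm_sq, pl_norm_sq, pl_norm_sq]
  simp
  ring

/-- A unit vector of the plane with a prescribed inner product with a nonzero `x`. -/
lemma exists_unit (x : Pl) (c : ℝ) (hx : 0 < ‖x‖ ^ 2) (hc : c ^ 2 ≤ ‖x‖ ^ 2) :
    ∃ v : Pl, ‖v‖ ^ 2 = 1 ∧ x 0 * v 0 + x 1 * v 1 = c := by
  set a := ‖x‖ ^ 2 with ha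
  have ha' : a = x 0 ^ 2 + x 1 ^ 2 := pl_norm_sq x
  set s := √(a - c ^ 2) with hs
  have hs2 : s ^ 2 = a - c ^ 2 := Real.sq_sqrt (by linarith)
  have hane : a ≠ 0 := ne_of_gt hx
  refine ⟨!₂[(c * x 0 - s * x 1) / a, (c * x 1 + s * x 0) / a], ?_, ?_⟩
  · rw [pl_norm_sq]
    simp
    field_simp
    linear_combination (x 0 ^ 2 + x 1 ^ 2) * hs2 - a * ha'
  · simp
    field_simp
    rw [ha']
    ring

/-- Forcing recursion in the plane. -/
lemma plane_force (ρ : ℝ) (hρ : ρ < 3) (m : ℕ) : ∀ x : Pl, 1 ≤ ‖x‖ ^ 2 →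
    1 ≤ 2 ^ m * (‖x‖ ^ 2 - (ρ - 2)) → ∃ L : List Pl, (∀ w ∈ L, ‖w‖ ≤ 1) ∧ Forced ρ x L := by
  have base : ∀ x : Pl, 1 ≤ ‖x‖ ^ 2 → ρ - 1 ≤ ‖x‖ ^ 2 →
      ∃ L : List Pl, (∀ w ∈ L, ‖w‖ ≤ 1) ∧ Forced ρ x L := by
    intro x hx h
    obtain ⟨v, hv, hc⟩ := exists_unit x 0 (by linarith) (by nlinarith)
    have hv1 : ‖v‖ ≤ 1 := by nlinarith [norm_nonneg v]
    refine ⟨[v], by simpa using hv1, ?_⟩
    right
    refine ⟨?_, ?_⟩
    · change ρ ≤ ‖x + v‖ ^ 2
      rw [pl_add_norm_sq, hv, hc]; linarith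
    · change ρ ≤ ‖x - v‖ ^ 2
      rw [pl_sub_norm_sq, hv, hc]; linarith
  induction m with
  | zero =>
    intro x hx h
    exact base x hx (by simp at h; linarith)
  | succ m ih =>
    intro x hx h
    by_cases hb : ρ - 1 ≤ ‖x‖ ^ 2
    · exact base x hx hb
    · push Not at hb
      set a := ‖x‖ ^ 2 with ha
      set c := (ρ - a - 1) / 2 with hc
      have hc0 : 0 < c := by rw [hc]; linarith
      have hc1 : c ≤ 1 / 2 := by rw [hc]; linarith
      have hc2 : c ^ 2 ≤ a := by nlinarith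
      obtain ⟨v, hv, hin⟩ := exists_unit x c (by linarith) hc2
      have hv1 : ‖v‖ ≤ 1 := by nlinarith [norm_nonneg v]
      have hplus : ‖x + v‖ ^ 2 = ρ := by
        rw [pl_add_norm_sq, hv, hin, ← ha, hc]; ring
      have hminus : ‖x - v‖ ^ 2 = 2 * a + 2 - ρ := by
        rw [pl_sub_norm_sq, hv, hin, ← ha, hc]; ring
      have hx' : 1 ≤ ‖x - v‖ ^ 2 := by rw [hminus]; linarith
      have hgap : 1 ≤ 2 ^ m * (‖x - v‖ ^ 2 - (ρ - 2)) := by
        rw [hminus]
        have : 2 ^ (m + 1) * (a - (ρ - 2)) = 2 ^ m * (2 * a + 2 - ρ - (ρ - 2)) := by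
          rw [pow_succ]; ring
        rw [← this]
        exact h
      obtain ⟨L, hL, hF⟩ := ih (x - v) hx' hgap
      refine ⟨v :: L, ?_, ?_⟩
      · intro w hw
        rcases List.mem_cons.1 hw with rfl | hw
        · exact hv1
        · exact hL w hw
      · right
        exact ⟨forced_of_le hplus.ge L, hF⟩

/-- For every `ρ < 3` a list of vectors in the unit disc forces squared norm `ρ` from the origin. -/
lemma plane_list (ρ : ℝ) (hρ : ρ < 3) :
    ∃ L : List Pl, (∀ w ∈ L, ‖w‖ ≤ 1) ∧ Forced ρ (0 : Pl) L := by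
  -- the first vector
  obtain ⟨m, hm⟩ := pow_unbounded_of_one_lt (1 / (3 - ρ)) (by norm_num : (1 : ℝ) < 2)
  have h3 : 0 < 3 - ρ := by linarith
  have hm' : 1 ≤ 2 ^ m * (3 - ρ) := by
    rw [div_lt_iff₀ h3] at hm
    exact hm.le
  set e : Pl := !₂[1, 0] with he
  have hen : ‖e‖ ^ 2 = 1 := by rw [pl_norm_sq]; simp [he]
  have hen1 : ‖e‖ ≤ 1 := by nlinarith [norm_nonneg e]
  obtain ⟨L, hL, hF⟩ := plane_force ρ hρ m e (by rw [hen]) (by rw [hen]; linarith)
  refine ⟨e :: L, ?_, ?_⟩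
  · intro w hw
    rcases List.mem_cons.1 hw with rfl | hw
    · exact hen1
    · exact hL w hw
  · right
    constructor
    · simpa using hF
    · have := forced_neg L e hF
      simpa using this

end Plane

end Vale.Agent.Lib.P262
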