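import Mathlib
import Vale.Agent.Lib.P262.Forced

namespace Vale.Agent.Lib.P262

open Finset

/-- Euclidean space of dimension `d`. -/
abbrev Ed (d : ℕ) := EuclideanSpace ℝ (Fin d)

/-- The isometric inclusion of `ℝ^d` in `ℝ^(d+1)` (last coordinate zero). -/
noncomputable def incl (d : ℕ) (x : Ed d) : Ed (d + 1) :=
  WithLp.toLp 2 (Fin.snoc (fun i => x i) 0)

/-- The last basis vector of `ℝ^(d+1)`. -/
noncomputable def lastVec (d : ℕ) : Ed (d + 1) :=
  WithLp.toLp 2 (Fin.snoc (fun _ => 0) 1)

lemma incl_castSucc (d : ℕ) (x : Ed d) (i : Fin d) : (incl d x) i.castSucc = x i := by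
  simp [incl]

lemma incl_last (d : ℕ) (x : Ed d) : (incl d x) (Fin.last d) = 0 := by
  simp [incl]

lemma lastVec_castSucc (d : ℕ) (i : Fin d) : (lastVec d) i.castSucc = 0 := by
  simp [lastVec]

lemma lastVec_last (d : ℕ) : (lastVec d) (Fin.last d) = 1 := by
  simp [lastVec]

lemma norm_sq_succ (d : ℕ) (y : Ed (d + 1)) :
    ‖y‖ ^ 2 = (∑ i : Fin d, y i.castSucc ^ 2) + y (Fin.last d) ^ 2 := by
  rw [EuclideanSpace.norm_sq_eq, Fin.sum_univ_castSucc]
  simp

lemma norm_sq_d (d : ℕ) (x : Ed d) : ‖x‖ ^ 2 = ∑ i : Fin d, x i ^ 2 := by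
  rw [EuclideanSpace.norm_sq_eq]
  simp

lemma norm_incl_add (d : ℕ) (x : Ed d) (s : ℝ) :
    ‖incl d x + s • lastVec d‖ ^ 2 = ‖x‖ ^ 2 + s ^ 2 := by
  rw [norm_sq_succ, norm_sq_d]
  simp [incl_castSucc, incl_last, lastVec_castSucc, lastVec_last]

lemma norm_incl (d : ℕ) (x : Ed d) : ‖incl d x‖ = ‖x‖ := by
  have h : ‖incl d x‖ ^ 2 = ‖x‖ ^ 2 := by
    have := norm_incl_add d x 0
    simpa using this
  have h1 := norm_nonneg (incl d x)
  have h2 := norm_nonneg x
  nlinarith

lemma norm_lastVec (d : ℕ) : ‖lastVec d‖ = 1 := by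
  have h : ‖lastVec d‖ ^ 2 = 1 := by
    rw [norm_sq_succ]
    simp [lastVec_castSucc, lastVec_last]
  have h1 := norm_nonneg (lastVec d)
  nlinarith

lemma incl_add (d : ℕ) (x y : Ed d) : incl d (x + y) = incl d x + incl d y := by
  ext i
  refine Fin.lastCases ?_ (fun j => ?_) i
  · simp [incl_last]
  · simp [incl_castSucc]

lemma incl_sub (d : ℕ) (x y : Ed d) : incl d (x - y) = incl d x - incl d y := by
  ext i
  refine Fin.lastCases ?_ (fun j => ?_) i
  · simp [incl_last]
  · simp [incl_castSucc]

/-- Lifting a forcing list through an orthogonal extra coordinate of value `s = ±1`. -/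
lemma forced_lift (d : ℕ) (ρ s : ℝ) (hs : s ^ 2 = 1) (L : List (Ed d)) :
    ∀ x : Ed d, Forced ρ x L →
      Forced (ρ + 1) (incl d x + s • lastVec d) (L.map (incl d)) := by
  induction L with
  | nil =>
    intro x h
    change ρ + 1 ≤ _
    rw [norm_incl_add, hs]
    have h' : ρ ≤ ‖x‖ ^ 2 := h
    linarith
  | cons w L ih =>
    intro x h
    rcases h with h | ⟨h1, h2⟩
    · left
      rw [norm_incl_add, hs]
      linarith
    · right
      constructor
      · have := ih (x + w) h1
        rw [incl_add] at this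
        have e : incl d x + s • lastVec d + incl d w = incl d x + incl d w + s • lastVec d := by
          abel
        rwa [e]
      · have := ih (x - w) h2
        rw [incl_sub] at this
        have e : incl d x + s • lastVec d - incl d w = incl d x - incl d w + s • lastVec d := by
          abel
        rwa [e]

/-- The list forcing squared norm `ρ < d + 1` in dimension `d ≥ 2`. -/
lemma exists_list (d : ℕ) (hd : 2 ≤ d) : ∀ ρ : ℝ, ρ < d + 1 →
    ∃ L : List (Ed d), (∀ w ∈ L, ‖w‖ ≤ 1) ∧ Forced ρ (0 : Ed d) L := by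
  induction d, hd using Nat.le_induction with
  | base =>
    intro ρ hρ
    exact plane_list ρ (by norm_num at hρ; linarith)
  | succ d hd ih =>
    intro ρ hρ
    obtain ⟨L, hL, hF⟩ := ih (ρ - 1) (by push_cast at hρ; linarith)
    refine ⟨lastVec d :: L.map (incl d), ?_, ?_⟩
    · intro w hw
      rcases List.mem_cons.1 hw with rfl | hw
      · exact (norm_lastVec d).le
      · obtain ⟨u, hu, rfl⟩ := List.mem_map.1 hw
        rw [norm_incl]
        exact hL u hu
    · right
      have h0 : incl d (0 : Ed d) = 0 := by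
        ext i
        refine Fin.lastCases ?_ (fun j => ?_) i
        · simp [incl_last]
        · simp [incl_castSucc]
      constructor
      · have := forced_lift d (ρ - 1) 1 (by norm_num) L 0 hF
        rw [h0] at this
        have e : ρ - 1 + 1 = ρ := by ring
        rw [e] at this
        simpa using this
      · have := forced_lift d (ρ - 1) (-1) (by norm_num) L 0 hF
        rw [h0] at this
        have e : ρ - 1 + 1 = ρ := by ring
        rw [e] at this
        simpa [sub_eq_add_neg] using this

end Vale.Agent.Lib.P262
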