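import Mathlib

namespace Vale.Agent.Lib.P262

open Finset

/-- If the Gram data of three vectors with squared norms at most one has small off-diagonal
entries, then its determinant is positive. -/
lemma gram_pos (p q r A B C : ℝ) (hx : p ≤ 1) (hy : q ≤ 1) (hz : r ≤ 1)
    (e1 : 1 < p + q + 2 * A) (e2 : 1 < p + q - 2 * A)
    (e3 : 1 < p + r + 2 * B) (e4 : 1 < p + r - 2 * B)
    (e5 : 1 < q + r + 2 * C) (e6 : 1 < q + r - 2 * C) :
    0 < p * q * r + 2 * A * B * C - p * C ^ 2 - q * B ^ 2 - r * A ^ 2 := by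
  have hp0 : 0 < p := by linarith
  have hq0 : 0 < q := by linarith
  have hr0 : 0 < r := by linarith
  have aA : 2 * |A| < p * q := by
    have : p + q - 1 ≤ p * q := by nlinarith [mul_nonneg (sub_nonneg.2 hx) (sub_nonneg.2 hy)]
    rcases abs_cases A with ⟨h, _⟩ | ⟨h, _⟩ <;> rw [h] <;> linarith
  have aB : 2 * |B| < p * r := by
    have : p + r - 1 ≤ p * r := by nlinarith [mul_nonneg (sub_nonneg.2 hx) (sub_nonneg.2 hz)]
    rcases abs_cases B with ⟨h, _⟩ | ⟨h, _⟩ <;> rw [h] <;> linarith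
  have aC : 2 * |C| < q * r := by
    have : q + r - 1 ≤ q * r := by nlinarith [mul_nonneg (sub_nonneg.2 hy) (sub_nonneg.2 hz)]
    rcases abs_cases C with ⟨h, _⟩ | ⟨h, _⟩ <;> rw [h] <;> linarith
  have hpq : p * q ≤ 1 := mul_le_one₀ hx hq0.le hy
  have hpr : p * r ≤ 1 := mul_le_one₀ hx hr0.le hz
  have hqr : q * r ≤ 1 := mul_le_one₀ hy hr0.le hz
  have hpqr0 : 0 < p * q * r := by positivity
  have hpqr1 : p * q * r ≤ 1 := mul_le_one₀ hpq hr0.le hz
  have sA : 4 * A ^ 2 ≤ (p * q) ^ 2 := by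
    have h : (2 * |A|) ^ 2 ≤ (p * q) ^ 2 :=
      pow_le_pow_left₀ (by positivity) aA.le 2
    have h' : (2 * |A|) ^ 2 = 4 * A ^ 2 := by rw [mul_pow, sq_abs]; norm_num
    linarith
  have sB : 4 * B ^ 2 ≤ (p * r) ^ 2 := by
    have h : (2 * |B|) ^ 2 ≤ (p * r) ^ 2 :=
      pow_le_pow_left₀ (by positivity) aB.le 2
    have h' : (2 * |B|) ^ 2 = 4 * B ^ 2 := by rw [mul_pow, sq_abs]; norm_num
    linarith
  have sC : 4 * C ^ 2 ≤ (q * r) ^ 2 := by
    have h : (2 * |C|) ^ 2 ≤ (q * r) ^ 2 :=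
      pow_le_pow_left₀ (by positivity) aC.le 2
    have h' : (2 * |C|) ^ 2 = 4 * C ^ 2 := by rw [mul_pow, sq_abs]; norm_num
    linarith
  have tA : 4 * (r * A ^ 2) ≤ p * q * r := by
    have h1 : r * (4 * A ^ 2) ≤ r * (p * q) ^ 2 := mul_le_mul_of_nonneg_left sA hr0.le
    have h2 : (p * q * r) * (p * q) ≤ (p * q * r) * 1 := mul_le_mul_of_nonneg_left hpq hpqr0.le
    nlinarith
  have tB : 4 * (q * B ^ 2) ≤ p * q * r := by
    have h1 : q * (4 * B ^ 2) ≤ q * (p * r) ^ 2 := mul_le_mul_of_nonneg_left sB hq0.le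
    have h2 : (p * q * r) * (p * r) ≤ (p * q * r) * 1 := mul_le_mul_of_nonneg_left hpr hpqr0.le
    nlinarith
  have tC : 4 * (p * C ^ 2) ≤ p * q * r := by
    have h1 : p * (4 * C ^ 2) ≤ p * (q * r) ^ 2 := mul_le_mul_of_nonneg_left sC hp0.le
    have h2 : (p * q * r) * (q * r) ≤ (p * q * r) * 1 := mul_le_mul_of_nonneg_left hqr hpqr0.le
    nlinarith
  have tABC : 8 * (|A| * |B| * |C|) < p * q * r := by
    have h1 : (2 * |A|) * (2 * |B|) < (p * q) * (p * r) :=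
      mul_lt_mul'' aA aB (by positivity) (by positivity)
    have h2 : (2 * |A|) * (2 * |B|) * (2 * |C|) < (p * q) * (p * r) * (q * r) :=
      mul_lt_mul'' h1 aC (by positivity) (by positivity)
    have h3 : (p * q) * (p * r) * (q * r) = (p * q * r) * (p * q * r) := by ring
    have h4 : (p * q * r) * (p * q * r) ≤ (p * q * r) * 1 :=
      mul_le_mul_of_nonneg_left hpqr1 hpqr0.le
    nlinarith
  have ABC : -(|A| * |B| * |C|) ≤ A * B * C := by
    have : |A * B * C| = |A| * |B| * |C| := by rw [abs_mul, abs_mul]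
    rw [← this]
    exact neg_abs_le _
  nlinarith

/-- Real-variable core: among three vectors of the closed unit disc of the plane, a sum or
difference of two of them lies in the unit disc. -/
lemma three_planar (a b c d e f : ℝ) (hx : a ^ 2 + b ^ 2 ≤ 1) (hy : c ^ 2 + d ^ 2 ≤ 1)
    (hz : e ^ 2 + f ^ 2 ≤ 1) :
    (a + c) ^ 2 + (b + d) ^ 2 ≤ 1 ∨ (a - c) ^ 2 + (b - d) ^ 2 ≤ 1 ∨
    (a + e) ^ 2 + (b + f) ^ 2 ≤ 1 ∨ (a - e) ^ 2 + (b - f) ^ 2 ≤ 1 ∨
    (c + e) ^ 2 + (d + f) ^ 2 ≤ 1 ∨ (c - e) ^ 2 + (d - f) ^ 2 ≤ 1 := by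
  by_contra hcon
  push Not at hcon
  obtain ⟨h1, h2, h3, h4, h5, h6⟩ := hcon
  have g := gram_pos (a ^ 2 + b ^ 2) (c ^ 2 + d ^ 2) (e ^ 2 + f ^ 2)
    (a * c + b * d) (a * e + b * f) (c * e + d * f) hx hy hz
    (by nlinarith) (by nlinarith) (by nlinarith) (by nlinarith) (by nlinarith) (by nlinarith)
  have g0 : (a ^ 2 + b ^ 2) * (c ^ 2 + d ^ 2) * (e ^ 2 + f ^ 2)
      + 2 * (a * c + b * d) * (a * e + b * f) * (c * e + d * f)
      - (a ^ 2 + b ^ 2) * (c * e + d * f) ^ 2 - (c ^ 2 + d ^ 2) * (a * e + b * f) ^ 2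
      - (e ^ 2 + f ^ 2) * (a * c + b * d) ^ 2 = 0 := by ring
  linarith

end Vale.Agent.Lib.P262
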