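import Mathlib
import Vale.Agent.Lib.P262.Planar

namespace Vale.Agent.Lib.P262

open Finset

/-- Signs. -/
def IsSign (s : ℝ) : Prop := s = 1 ∨ s = -1

lemma IsSign.neg {s : ℝ} (h : IsSign s) : IsSign (-s) := by
  rcases h with rfl | rfl
  · right; rfl
  · left; norm_num

lemma isSign_one : IsSign 1 := Or.inl rfl

section General

variable {E : Type*} [NormedAddCommGroup E] [InnerProductSpace ℝ E]

/-- `p` is the endpoint at time `n` of a signing whose partial sums stay in the ball of radius `R`. -/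
def Reach (R : ℝ) (v : ℕ → E) (n : ℕ) (p : E) : Prop :=
  ∃ ε : ℕ → ℝ, (∀ i, IsSign (ε i)) ∧ (∑ i ∈ range n, ε i • v i = p) ∧
    ∀ k ≤ n, ‖∑ i ∈ range k, ε i • v i‖ ≤ R

lemma reach_zero {R : ℝ} (hR : 0 ≤ R) (v : ℕ → E) : Reach R v 0 0 := by
  refine ⟨fun _ => 1, fun _ => isSign_one, by simp, ?_⟩
  intro k hk
  have : k = 0 := by omega
  subst this
  simpa using hR

lemma reach_succ {R : ℝ} {v : ℕ → E} {n : ℕ} {p : E} {τ : ℝ} (h : Reach R v n p)
    (hτ : IsSign τ) (hn : ‖p + τ • v n‖ ≤ R) : Reach R v (n + 1) (p + τ • v n) := by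
  obtain ⟨ε, hs, hp, hk⟩ := h
  classical
  let ε' : ℕ → ℝ := fun i => if i = n then τ else ε i
  have hsum : ∀ k ≤ n, ∑ i ∈ range k, ε' i • v i = ∑ i ∈ range k, ε i • v i := by
    intro k hk'
    apply sum_congr rfl
    intro i hi
    have : i ≠ n := by
      have := mem_range.1 hi
      omega
    simp [ε', this]
  refine ⟨ε', ?_, ?_, ?_⟩
  · intro i
    by_cases hi : i = n
    · simp [ε', hi, hτ]
    · simp [ε', hi, hs i]
  · rw [sum_range_succ, hsum n le_rfl, hp]
    simp [ε']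
  · intro k hk'
    rcases Nat.lt_or_ge k (n + 1) with hlt | hge
    · rw [hsum k (by omega)]
      exact hk k (by omega)
    · have : k = n + 1 := by omega
      subst this
      rw [sum_range_succ, hsum n le_rfl, hp]
      simpa [ε'] using hn

end General

section Two

/-- The Euclidean plane. -/
abbrev E2 := EuclideanSpace ℝ (Fin 2)

lemma norm_le_one_iff (x : E2) : ‖x‖ ≤ 1 ↔ x 0 ^ 2 + x 1 ^ 2 ≤ 1 := by
  have h : ‖x‖ ^ 2 = x 0 ^ 2 + x 1 ^ 2 := by
    rw [EuclideanSpace.norm_sq_eq]; simp [Fin.sum_univ_two]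
  rw [← h]
  constructor
  · intro hx
    have := norm_nonneg x
    nlinarith
  · intro hx
    have := norm_nonneg x
    nlinarith

/-- Among three vectors of the closed unit disc of the plane, a sum or difference of two of them
lies in the disc. -/
lemma three_merge (x y z : E2) (hx : ‖x‖ ≤ 1) (hy : ‖y‖ ≤ 1) (hz : ‖z‖ ≤ 1) :
    ‖x + y‖ ≤ 1 ∨ ‖x - y‖ ≤ 1 ∨ ‖x + z‖ ≤ 1 ∨ ‖x - z‖ ≤ 1 ∨ ‖y + z‖ ≤ 1 ∨ ‖y - z‖ ≤ 1 := by
  rw [norm_le_one_iff] at hx hy hz
  simp only [norm_le_one_iff]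
  simpa using three_planar _ _ _ _ _ _ hx hy hz

/-- The invariant: a pair of vectors of the unit disc, all of whose four signed sums are endpoints
of signings with partial sums in the disc of radius `√3`. -/
def Inv (v : ℕ → E2) (n : ℕ) : Prop :=
  ∃ x h : E2, ‖x‖ ≤ 1 ∧ ‖h‖ ≤ 1 ∧
    ∀ s t : ℝ, IsSign s → IsSign t → Reach (√3) v n (s • x + t • h)

lemma one_le_sqrt3 : (1 : ℝ) ≤ √3 := by
  rw [show (1 : ℝ) = √1 by simp]
  exact Real.sqrt_le_sqrt (by norm_num)

lemma sq_le_sqrt3 {a : ℝ} (h : a ^ 2 ≤ 3) : a ≤ √3 := Real.le_sqrt_of_sq_le h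

/-- One step, from a candidate pair `(y, z)` whose signed sums extend signings at time `n`. -/
lemma inv_step {v : ℕ → E2} {n : ℕ} (y z : E2) (hy : ‖y‖ ≤ 1) (hz : ‖z‖ ≤ 1)
    (hcov : ∀ s t : ℝ, IsSign s → IsSign t →
      ∃ c τ, Reach (√3) v n c ∧ IsSign τ ∧ s • y + t • z = c + τ • v n) :
    Inv v (n + 1) := by
  -- a signed sum of norm at most `√3` is reachable at time `n + 1`
  have key : ∀ s t : ℝ, IsSign s → IsSign t → ‖s • y + t • z‖ ≤ √3 →
      Reach (√3) v (n + 1) (s • y + t • z) := by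
    intro s t hs ht hn
    obtain ⟨c, τ, hc, hτ, he⟩ := hcov s t hs ht
    rw [he] at hn ⊢
    exact reach_succ hc hτ hn
  have hpar := parallelogram_law_with_norm ℝ y z
  have hy2 : ‖y‖ ^ 2 ≤ 1 := by nlinarith [norm_nonneg y]
  have hz2 : ‖z‖ ^ 2 ≤ 1 := by nlinarith [norm_nonneg z]
  by_cases h1 : ‖y + z‖ ≤ √3
  · by_cases h2 : ‖y - z‖ ≤ √3
    · refine ⟨y, z, hy, hz, ?_⟩
      intro s t hs ht
      apply key s t hs ht
      rcases hs with rfl | rfl <;> rcases ht with rfl | rfl
      · simpa using h1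
      · simpa [sub_eq_add_neg] using h2
      · have : (-1 : ℝ) • y + (1 : ℝ) • z = -(y - z) := by simp; abel
        rw [this, norm_neg]; exact h2
      · have : (-1 : ℝ) • y + (-1 : ℝ) • z = -(y + z) := by simp; abel
        rw [this, norm_neg]; exact h1
    · -- the other diagonal is short
      have h2' : √3 < ‖y - z‖ := not_le.1 h2
      have h3 : 3 < ‖y - z‖ ^ 2 := by
        have := Real.sq_sqrt (show (0 : ℝ) ≤ 3 by norm_num)
        have h0 := Real.sqrt_nonneg 3
        nlinarith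
      have h4 : ‖y + z‖ ≤ 1 := by
        have : ‖y + z‖ ^ 2 ≤ 1 := by linarith
        nlinarith [norm_nonneg (y + z)]
      refine ⟨y + z, 0, h4, by simp, ?_⟩
      intro s t hs ht
      have e : s • (y + z) + t • (0 : E2) = s • y + s • z := by simp
      rw [e]
      apply key s s hs hs
      have : ‖s • y + s • z‖ = ‖y + z‖ := by
        rcases hs with rfl | rfl
        · simp
        · have : (-1 : ℝ) • y + (-1 : ℝ) • z = -(y + z) := by simp; abel
          rw [this, norm_neg]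
      rw [this]
      exact h1
  · have h1' : √3 < ‖y + z‖ := not_le.1 h1
    have h3 : 3 < ‖y + z‖ ^ 2 := by
      have := Real.sq_sqrt (show (0 : ℝ) ≤ 3 by norm_num)
      have h0 := Real.sqrt_nonneg 3
      nlinarith
    have h4 : ‖y - z‖ ≤ 1 := by
      have : ‖y - z‖ ^ 2 ≤ 1 := by linarith
      nlinarith [norm_nonneg (y - z)]
    refine ⟨y - z, 0, h4, by simp, ?_⟩
    intro s t hs ht
    have e : s • (y - z) + t • (0 : E2) = s • y + (-s) • z := by
      simp [sub_eq_add_neg, neg_smul]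
    rw [e]
    apply key s (-s) hs hs.neg
    have : ‖s • y + (-s) • z‖ = ‖y - z‖ := by
      rcases hs with rfl | rfl
      · simp [sub_eq_add_neg]
      · have : (-1 : ℝ) • y + (-(-1) : ℝ) • z = -(y - z) := by simp; abel
        rw [this, norm_neg]
    rw [this]
    exact le_trans h4 one_le_sqrt3

lemma inv_all (N : ℕ) (v : ℕ → E2) (hv : ∀ i < N, ‖v i‖ ≤ 1) : ∀ n ≤ N, Inv v n := by
  intro n
  induction n with
  | zero =>
    intro _
    refine ⟨0, 0, by simp, by simp, ?_⟩
    intro s t _ _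
    simpa using reach_zero (Real.sqrt_nonneg 3) v
  | succ n ih =>
    intro hn
    obtain ⟨x, h, hx, hh, hr⟩ := ih (by omega)
    have hw : ‖v n‖ ≤ 1 := hv n (by omega)
    rcases three_merge x h (v n) hx hh hw with c | c | c | c | c | c
    · -- merge `x + h`
      refine inv_step (x + h) (v n) c hw ?_
      intro s t hs ht
      refine ⟨s • x + s • h, t, hr s s hs hs, ht, ?_⟩
      simp [smul_add]
    · refine inv_step (x - h) (v n) c hw ?_
      intro s t hs ht
      refine ⟨s • x + (-s) • h, t, hr s (-s) hs hs.neg, ht, ?_⟩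
      simp [sub_eq_add_neg, neg_smul]
    · refine inv_step (x + v n) h c hh ?_
      intro s t hs ht
      refine ⟨s • x + t • h, s, hr s t hs ht, hs, ?_⟩
      simp only [smul_add]; abel
    · refine inv_step (x - v n) h c hh ?_
      intro s t hs ht
      refine ⟨s • x + t • h, -s, hr s t hs ht, hs.neg, ?_⟩
      simp only [smul_sub, neg_smul]; abel
    · refine inv_step (h + v n) x c hx ?_
      intro s t hs ht
      refine ⟨t • x + s • h, s, hr t s ht hs, hs, ?_⟩
      simp only [smul_add]; abel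
    · refine inv_step (h - v n) x c hx ?_
      intro s t hs ht
      refine ⟨t • x + s • h, -s, hr t s ht hs, hs.neg, ?_⟩
      simp only [smul_sub, neg_smul]; abel

/-- Upper bound: every finite sequence in the unit disc of the plane has a signing all of whose
partial sums have norm at most `√3`. -/
theorem upper_two (N : ℕ) (v : ℕ → E2) (hv : ∀ i < N, ‖v i‖ ≤ 1) :
    ∃ ε : ℕ → ℝ, (∀ i, ε i = 1 ∨ ε i = -1) ∧
      ∀ k ≤ N, ‖∑ i ∈ range k, ε i • v i‖ ≤ √3 := by
  obtain ⟨x, h, -, -, hr⟩ := inv_all N v hv N le_rfl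
  obtain ⟨ε, hs, -, hk⟩ := hr 1 1 isSign_one isSign_one
  exact ⟨ε, hs, hk⟩

end Two

end Vale.Agent.Lib.P262
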